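import Mathlib
import Vale.Agent.P262.Defs
import Vale.Agent.P262.Lower

namespace Vale.Agent.Results.P262.LowerAllDims

open Vale.Agent.P262

/-- For every dimension `d ≥ 2` the signed-sum constant satisfies `√(d+1) ≤ σ(d)`; moreover
every value below `d + 1` is forced, as a square norm, by an explicit finite sequence. -/
theorem result (d : ℕ) (hd : 2 ≤ d) :
    ENNReal.ofReal (Real.sqrt (d + 1)) ≤ sigma d ∧
    ∀ T : ℝ, T < d + 1 →
      ∃ (N : ℕ) (v : Fin N → EuclideanSpace ℝ (Fin d)), (∀ i, ‖v i‖ ≤ 1) ∧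
        ∀ s : Fin N → Bool, ∃ k : Fin (N + 1), T ≤ ‖psum v s k.val‖ ^ 2 :=
  ⟨sqrt_le_sigma d hd, fun T hT => lower_plain d hd T hT⟩

end Vale.Agent.Results.P262.LowerAllDims
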